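import Mathlib
import Vale.Agent.P209.Defs
import Vale.Agent.P209.Packing

/-!
Symplectic packings of a ball by balls: sufficiency in three ranges.
-/

namespace Vale.Agent.Results.P209.BallPackingToric

open Vale.Agent.P209

/-- (1) For at most `2 ^ n` balls the two conditions suffice; (2) asymptotically for small balls
the volume condition suffices; (3) a volume bound with an explicit constant suffices. -/
theorem result :
    (∀ (n k : ℕ) (R : ℝ) (Rs : Fin k → ℝ), k ≤ 2 ^ n → 0 < R → (∀ i, 0 < Rs i) →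
      (∑ i, Rs i ^ n < R ^ n) → (∀ i j, i < j → Rs i + Rs j < R) → Packs n k R Rs) ∧
    (∀ (n : ℕ) (ε : ℝ), 0 < n → 0 < ε → ∃ η : ℝ, 0 < η ∧
      ∀ (k : ℕ) (R : ℝ) (Rs : Fin k → ℝ), 0 < R → (∀ i, 0 < Rs i) → (∀ i, Rs i ≤ η * R) →
        ∑ i, Rs i ^ n ≤ (1 - ε) * R ^ n → Packs n k R Rs) ∧
    (∀ (n k : ℕ) (R : ℝ) (Rs : Fin k → ℝ), 0 < n → 0 < R → (∀ i, 0 < Rs i) →
      ∑ i, Rs i ^ n < (2 ^ n : ℝ)⁻¹ * R ^ n → Packs n k R Rs) :=
  ⟨fun _ _ _ _ hk hR hp hv hpair => packs_few hk hR hp hv hpair,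
    fun _ _ hn hε => packs_asymptotic hn hε,
    fun _ _ _ _ hn hR hp hv => packs_of_volume_small_const hn hR hp hv⟩

end Vale.Agent.Results.P209.BallPackingToric
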