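import Mathlib
import Vale.Agent.P209.Defs
import Vale.Agent.P209.Uniform
import Vale.Agent.P209.SmallExact

/-!
The volume and two-ball conditions suffice up to a universal volume constant in every dimension.
-/

namespace Vale.Agent.Results.P209.BallPackingUniform

open Vale.Agent.P209

/-- (1) A universal volume constant, in every dimension. (2) Equivalently, up to a dilation by
`C ^ (1 / n)`. (3) For balls below a third of the target the constant tends to one. -/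
theorem result :
    (∃ c : ℝ, 0 < c ∧ ∀ (n k : ℕ) (R : ℝ) (Rs : Fin k → ℝ), 0 < R → (∀ i, 0 < Rs i) →
      ∑ i, Rs i ^ n ≤ c * R ^ n → (∀ i j, i < j → Rs i + Rs j < R) → Packs n k R Rs) ∧
    (∃ C : ℝ, 1 ≤ C ∧ ∀ (n k : ℕ) (R : ℝ) (Rs : Fin k → ℝ), 0 < n → 0 < R → (∀ i, 0 < Rs i) →
      ∑ i, Rs i ^ n < R ^ n → (∀ i j, i < j → Rs i + Rs j < R) →
      Packs n k (C ^ ((n : ℝ)⁻¹) * R) Rs) ∧
    (∀ δ : ℝ, 0 < δ → ∃ n₀ : ℕ, ∀ n ≥ n₀, ∀ (k : ℕ) (R : ℝ) (Rs : Fin k → ℝ), 0 < R →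
      (∀ i, 0 < Rs i) → (∀ i, Rs i < R / 3) → ∑ i, Rs i ^ n ≤ (1 - δ) * R ^ n →
      Packs n k R Rs) := by
  obtain ⟨c, hc, h⟩ := packs_uniform
  refine ⟨⟨c, hc, h⟩, ⟨max 1 c⁻¹, le_max_left _ _, fun n k R Rs hn hR hpos hvol hpair => ?_⟩,
    fun δ hδ => packs_small_exact hδ⟩
  have hC : (1 : ℝ) ≤ max 1 c⁻¹ := le_max_left _ _
  have hl : (1 : ℝ) ≤ max 1 c⁻¹ ^ ((n : ℝ)⁻¹) := Real.one_le_rpow hC (by positivity)
  refine h n k _ Rs (by positivity) hpos ?_ fun i j hij => ?_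
  · rw [mul_pow, Real.rpow_inv_natCast_pow (by linarith) hn.ne']
    calc ∑ i, Rs i ^ n ≤ 1 * R ^ n := by rw [one_mul]; exact hvol.le
      _ ≤ c * max 1 c⁻¹ * R ^ n := by
          gcongr
          calc (1 : ℝ) = c * c⁻¹ := (mul_inv_cancel₀ hc.ne').symm
            _ ≤ _ := by gcongr; exact le_max_right _ _
      _ = _ := by ring
  · exact lt_of_lt_of_le (hpair i j hij) (le_mul_of_one_le_left hR.le hl)

end Vale.Agent.Results.P209.BallPackingUniform
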